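import Vale.Agent.P022.H724.JacU

/-!
# P022-X [JACE]: the quadratic character of an imaginary quadratic field, any discriminant
-/

open NumberField Module Ideal Vale.Agent.P022.H220 Vale.Agent.P022.H724

namespace Vale.Agent.P022.H776

section Ideals

variable {K : Type*} [Field K] [NumberField K] [Algebra.IsQuadraticExtension ℚ K]

omit [Algebra.IsQuadraticExtension ℚ K] in
/-- the Kronecker symbol `(-D / ℓ)` is the Legendre symbol of the discriminant -/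
theorem jac_eq_leg {D : ℕ} (hd : discr K = -(D : ℤ)) {ℓ : ℕ} [Fact ℓ.Prime] :
    jacobiSym (-(D : ℤ)) ℓ = legendreSym ℓ (discr K) := by
  rw [hd, jacobiSym.legendreSym.to_jacobiSym]

omit [Algebra.IsQuadraticExtension ℚ K] in
theorem not_dvd_discr {D : ℕ} (hd : discr K = -(D : ℤ)) {ℓ : ℕ} (hℓD : ¬ ℓ ∣ 2 * D) :
    ¬ (ℓ : ℤ) ∣ discr K := by
  rw [hd, dvd_neg]
  intro h
  exact hℓD ((Int.natCast_dvd_natCast.mp h).mul_left 2)

/-- **[JACE]** `(-D / ℓ) = 1` and `ℓ` splits, or `(-D / ℓ) = -1` and `ℓ` is inert -/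
theorem jacE {D : ℕ} (hd : discr K = -(D : ℤ)) {ℓ : ℕ} (hℓ : ℓ.Prime) (hℓD : ¬ ℓ ∣ 2 * D) :
    (jacobiSym (-(D : ℤ)) ℓ = 1 ∧ ∃ 𝔭 𝔮 : Ideal (𝓞 K), 𝔭 ≠ 𝔮 ∧ 𝔭.IsPrime ∧ 𝔮.IsPrime ∧
      Ideal.absNorm 𝔭 = ℓ ∧ Ideal.absNorm 𝔮 = ℓ ∧ 𝔭 * 𝔮 = Ideal.span {(ℓ : 𝓞 K)}) ∨
    (jacobiSym (-(D : ℤ)) ℓ = -1 ∧ (Ideal.span {(ℓ : 𝓞 K)}).IsPrime) := by
  have : Fact ℓ.Prime := ⟨hℓ⟩
  obtain ⟨B⟩ := exists_qb (K := K) (Algebra.IsQuadraticExtension.finrank_eq_two ℚ K)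
  have h2 : ℓ ≠ 2 := by
    rintro rfl
    exact hℓD (dvd_mul_right _ _)
  have hdd := not_dvd_discr hd hℓD
  have hd0 : ((discr K : ℤ) : ZMod ℓ) ≠ 0 := by
    intro h
    exact hdd ((ZMod.intCast_zmod_eq_zero_iff_dvd _ _).mp h)
  rw [jac_eq_leg hd]
  by_cases h : ∃ s : ℤ, (ℓ : ℤ) ∣ discr K - s ^ 2
  · obtain ⟨s, hs⟩ := h
    left
    have hs' : (ℓ : ℤ) ∣ discr K - (-s) ^ 2 := by rwa [neg_sq]
    refine ⟨(legendreSym.eq_one_iff ℓ hd0).mpr ⟨(s : ZMod ℓ), ?_⟩, B.pr ℓ s, B.pr ℓ (-s),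
      B.pr_ne h2 hdd hs, ?_, ?_, B.norm_pr h2 hdd hs, B.norm_pr h2 hdd hs', B.pr_mul h2 hdd hs⟩
    · have := (ZMod.intCast_zmod_eq_zero_iff_dvd _ _).mpr hs
      push_cast at this
      linear_combination this
    · exact Ideal.isPrime_of_irreducible_absNorm (by rw [B.norm_pr h2 hdd hs]; exact hℓ)
    · exact Ideal.isPrime_of_irreducible_absNorm (by rw [B.norm_pr h2 hdd hs']; exact hℓ)
  · right
    refine ⟨(legendreSym.eq_neg_one_iff ℓ).mpr ?_, ?_⟩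
    · rintro ⟨s, hs⟩
      apply h
      refine ⟨(s.val : ℤ), ?_⟩
      rw [← ZMod.intCast_zmod_eq_zero_iff_dvd]
      push_cast
      rw [ZMod.natCast_zmod_val, hs]
      ring
    · have hN : absNorm (span {(ℓ : 𝓞 K)}) = ℓ ^ 2 := by
        rw [absNorm_span_natCast, B.finrank_int]
      have hirr : Irreducible (span {(ℓ : 𝓞 K)}) := by
        refine irreducible_iff.mpr ⟨?_, ?_⟩
        · rw [Ideal.isUnit_iff, ← absNorm_eq_one_iff, hN]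
          have := hℓ.one_lt
          nlinarith
        · intro a b hab
          rw [Ideal.isUnit_iff, Ideal.isUnit_iff, ← absNorm_eq_one_iff, ← absNorm_eq_one_iff]
          by_contra hcon
          rw [not_or] at hcon
          rw [hab, map_mul] at hN
          have := ((Nat.Prime.mul_eq_prime_sq_iff hℓ hcon.1 hcon.2).mp hN).1
          exact h (B.exists_sq_of_norm this)
      exact Ideal.isPrime_of_prime (UniqueFactorizationMonoid.irreducible_iff_prime.mp hirr)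

/-- the number of ideals of norm `ℓ` minus one, any discriminant -/
theorem chiE_eq {D : ℕ} (hd : discr K = -(D : ℤ)) {ℓ : ℕ} (hℓ : ℓ.Prime)
    (hℓD : ¬ ℓ ∣ 2 * D) : chi (𝓞 K) ℓ = jacobiSym (-(D : ℤ)) ℓ := by
  have : Fact ℓ.Prime := ⟨hℓ⟩
  obtain ⟨B⟩ := exists_qb (K := K) (Algebra.IsQuadraticExtension.finrank_eq_two ℚ K)
  have h2 : ℓ ≠ 2 := by
    rintro rfl
    exact hℓD (dvd_mul_right _ _)
  have h1 := B.ncard_norm_eq h2 (not_dvd_discr hd hℓD)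
  have h3 : {p : Ideal (𝓞 K) | absNorm p = ℓ} = ((Pl (𝓞 K) ℓ : Finset (Ideal (𝓞 K))) : Set _) := by
    ext p
    simp
  rw [h3, Set.ncard_coe_finset, ← jac_eq_leg hd] at h1
  unfold chi
  rw [h1]
  ring

end Ideals

/-! ### the factor at `2` -/

/-- the factor at `2` of the Kronecker symbol `(-D / ·)`, `D = 2 ^ v * D₀`, `D₀` odd: it depends on
`d mod 8` only -/
def c2 (v D₀ : ℕ) (d : ℤ) : ℤ := ZMod.χ₄ (d : ZMod 4) ^ (1 + D₀ / 2) * ZMod.χ₈ (d : ZMod 8) ^ v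

/-- the Kronecker symbol `(-D / d)`, `D = 2 ^ v * D₀`, for every odd `d` prime to `D₀` -/
def kr (v D₀ : ℕ) (d : ℤ) : ℤ := c2 v D₀ d * jacobiSym d D₀

theorem c2_mul (v D₀ : ℕ) (d e : ℤ) : c2 v D₀ (d * e) = c2 v D₀ d * c2 v D₀ e := by
  unfold c2
  push_cast
  rw [map_mul, map_mul, mul_pow, mul_pow]
  ring

theorem c2_one (v D₀ : ℕ) : c2 v D₀ 1 = 1 := by
  unfold c2
  simp

theorem c2_congr (v D₀ : ℕ) {d e : ℤ} (h : (8 : ℤ) ∣ d - e) : c2 v D₀ d = c2 v D₀ e := by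
  have h8 : (d : ZMod 8) = (e : ZMod 8) := by
    rw [← sub_eq_zero, ← Int.cast_sub]
    exact (ZMod.intCast_zmod_eq_zero_iff_dvd _ _).mpr (by exact_mod_cast h)
  have h4 : (d : ZMod 4) = (e : ZMod 4) := by
    rw [← sub_eq_zero, ← Int.cast_sub]
    exact (ZMod.intCast_zmod_eq_zero_iff_dvd _ _).mpr
      (by exact_mod_cast (show (4 : ℤ) ∣ d - e from Dvd.dvd.trans (by norm_num) h))
  unfold c2
  rw [h8, h4]

/-- for `D = 4 D₀`, `D₀ = 1 mod 4` the factor at `2` depends on `d mod 4` only -/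
theorem c2_congr_four {D₀ : ℕ} (h : D₀ % 4 = 1) {d : ℤ} (hd : Odd d) :
    c2 2 D₀ d = ZMod.χ₄ (d : ZMod 4) := by
  have h4 : d % 2 = 1 := Int.odd_iff.mp hd
  have h8 : ZMod.χ₈ (d : ZMod 8) ^ 2 = 1 := by
    have : d % 8 = 1 ∨ d % 8 = 3 ∨ d % 8 = 5 ∨ d % 8 = 7 := by omega
    have e : ((d % 8 : ℤ) : ZMod 8) = (d : ZMod 8) := by
      rw [← sub_eq_zero, ← Int.cast_sub]
      exact (ZMod.intCast_zmod_eq_zero_iff_dvd _ _).mpr (by push_cast; omega)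
    rw [← e]
    rcases this with h | h | h | h <;> rw [h] <;> decide
  have h44 : ZMod.χ₄ (d : ZMod 4) ^ 2 = 1 := by
    have : d % 4 = 1 ∨ d % 4 = 3 := by omega
    have e : ((d % 4 : ℤ) : ZMod 4) = (d : ZMod 4) := by
      rw [← sub_eq_zero, ← Int.cast_sub]
      exact (ZMod.intCast_zmod_eq_zero_iff_dvd _ _).mpr (by push_cast; omega)
    rw [← e]
    rcases this with h | h <;> rw [h] <;> decide
  obtain ⟨k, hk⟩ : ∃ k, D₀ / 2 = 2 * k := ⟨D₀ / 4, by omega⟩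
  unfold c2
  rw [h8, mul_one, hk, pow_add, pow_one, pow_mul, h44, one_pow, mul_one]

theorem c2_sq (v D₀ : ℕ) {d : ℤ} (hd : Odd d) : c2 v D₀ d * c2 v D₀ d = 1 := by
  have h4 : d % 2 = 1 := Int.odd_iff.mp hd
  have h8 : ZMod.χ₈ (d : ZMod 8) * ZMod.χ₈ (d : ZMod 8) = 1 := by
    have : d % 8 = 1 ∨ d % 8 = 3 ∨ d % 8 = 5 ∨ d % 8 = 7 := by omega
    have e : ((d % 8 : ℤ) : ZMod 8) = (d : ZMod 8) := by
      rw [← sub_eq_zero, ← Int.cast_sub]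
      exact (ZMod.intCast_zmod_eq_zero_iff_dvd _ _).mpr (by push_cast; omega)
    rw [← e]
    rcases this with h | h | h | h <;> rw [h] <;> decide
  have h44 : ZMod.χ₄ (d : ZMod 4) * ZMod.χ₄ (d : ZMod 4) = 1 := by
    have : d % 4 = 1 ∨ d % 4 = 3 := by omega
    have e : ((d % 4 : ℤ) : ZMod 4) = (d : ZMod 4) := by
      rw [← sub_eq_zero, ← Int.cast_sub]
      exact (ZMod.intCast_zmod_eq_zero_iff_dvd _ _).mpr (by push_cast; omega)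
    rw [← e]
    rcases this with h | h <;> rw [h] <;> decide
  unfold c2
  calc _ = (ZMod.χ₄ (d : ZMod 4) * ZMod.χ₄ (d : ZMod 4)) ^ (1 + D₀ / 2) *
        (ZMod.χ₈ (d : ZMod 8) * ZMod.χ₈ (d : ZMod 8)) ^ v := by
        rw [mul_pow, mul_pow]; ring
    _ = 1 := by rw [h44, h8, one_pow, one_pow, one_mul]

/-- **the factorisation** `(-D / n) = c2 n * (n / D₀)` -/
theorem jac_eq_kr {v D₀ : ℕ} (hD₀ : Odd D₀) {n : ℕ} (hn : Odd n) :
    jacobiSym (-((2 ^ v * D₀ : ℕ) : ℤ)) n = kr v D₀ n := by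
  have hn2 : n % 2 = 1 := Nat.odd_iff.mp hn
  unfold kr c2
  rw [jacobiSym.neg _ hn]
  push_cast
  rw [jacobiSym.mul_left, jacobiSym.pow_left, jacobiSym.at_two hn,
    jacobiSym.quadratic_reciprocity hD₀ hn, ZMod.χ₄_eq_neg_one_pow hn2, pow_add, pow_one,
    ← pow_mul, Nat.mul_comm (n / 2) (D₀ / 2)]
  ring

theorem kr_mul (v D₀ : ℕ) (d e : ℤ) : kr v D₀ (d * e) = kr v D₀ d * kr v D₀ e := by
  unfold kr
  rw [c2_mul, jacobiSym.mul_left]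
  ring

theorem kr_one (v D₀ : ℕ) : kr v D₀ 1 = 1 := by
  unfold kr
  rw [c2_one, jacobiSym.one_left, one_mul]

theorem kr_congr (v D₀ : ℕ) {d e : ℤ} (h : ((8 * D₀ : ℕ) : ℤ) ∣ d - e) :
    kr v D₀ d = kr v D₀ e := by
  have h8 : (8 : ℤ) ∣ d - e := Dvd.dvd.trans ⟨D₀, by push_cast; ring⟩ h
  have h0 : (D₀ : ℤ) ∣ d - e := Dvd.dvd.trans ⟨8, by push_cast; ring⟩ h
  unfold kr
  rw [c2_congr v D₀ h8, jacobiSym.mod_left d D₀, jacobiSym.mod_left e D₀,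
    Int.emod_eq_emod_iff_emod_sub_eq_zero.mpr (Int.emod_eq_zero_of_dvd h0)]

theorem kr_neg_one {v D₀ : ℕ} (hD₀ : Odd D₀) : kr v D₀ (-1) = -1 := by
  have hn2 : D₀ % 2 = 1 := Nat.odd_iff.mp hD₀
  unfold kr c2
  rw [jacobiSym.at_neg_one hD₀, ZMod.χ₄_eq_neg_one_pow hn2]
  have e4 : ZMod.χ₄ ((-1 : ℤ) : ZMod 4) = -1 := by decide
  have e8 : ZMod.χ₈ ((-1 : ℤ) : ZMod 8) = 1 := by decide
  rw [e4, e8, one_pow, mul_one, pow_add, pow_one, mul_assoc, ← mul_pow]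
  simp

theorem kr_sq (v D₀ : ℕ) {d : ℤ} (hd : Odd d) (h : IsCoprime d (D₀ : ℤ)) :
    kr v D₀ d * kr v D₀ d = 1 := by
  have h1 : jacobiSym d D₀ * jacobiSym d D₀ = 1 := by
    rw [← sq]
    exact jacobiSym.sq_one (Int.isCoprime_iff_gcd_eq_one.mp h)
  unfold kr
  calc _ = (c2 v D₀ d * c2 v D₀ d) * (jacobiSym d D₀ * jacobiSym d D₀) := by ring
    _ = 1 := by rw [c2_sq v D₀ hd, h1, one_mul]

end Vale.Agent.P022.H776
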