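import Vale.Agent.P022.H776.Jace
import Vale.Agent.P022.H472.Lit

/-!
# P022-X: the Kronecker symbol `(-D / d)` for every discriminant `-D`, and the literal of the
transformation law
-/

open NumberField Module Ideal

namespace Vale.Agent.P022.H776

theorem chi4_congr {d e : ℤ} (h : (4 : ℤ) ∣ d - e) :
    ZMod.χ₄ (d : ZMod 4) = ZMod.χ₄ (e : ZMod 4) := by
  have h4 : (d : ZMod 4) = (e : ZMod 4) := by
    rw [← sub_eq_zero, ← Int.cast_sub]
    exact (ZMod.intCast_zmod_eq_zero_iff_dvd _ _).mpr (by exact_mod_cast h)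
  rw [h4]

theorem chi8_sq {d : ℤ} (hd : Odd d) : ZMod.χ₈ (d : ZMod 8) ^ 2 = 1 := by
  have h4 : d % 2 = 1 := Int.odd_iff.mp hd
  have : d % 8 = 1 ∨ d % 8 = 3 ∨ d % 8 = 5 ∨ d % 8 = 7 := by omega
  have e : ((d % 8 : ℤ) : ZMod 8) = (d : ZMod 8) := by
    rw [← sub_eq_zero, ← Int.cast_sub]
    exact (ZMod.intCast_zmod_eq_zero_iff_dvd _ _).mpr (by push_cast; omega)
  rw [← e]
  rcases this with h | h | h | h <;> rw [h] <;> decide

/-- for `4 ∣ D` the factor at `2` depends on `d mod 2 ^ v` only -/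
theorem c2_congr' {v D₀ : ℕ} (hv : 2 ≤ v) {d e : ℤ} (hd : Odd d)
    (h : ((2 ^ v : ℕ) : ℤ) ∣ d - e) : c2 v D₀ d = c2 v D₀ e := by
  rcases Nat.eq_or_lt_of_le hv with rfl | hv
  · have h4 : (4 : ℤ) ∣ d - e := by simpa using h
    have he : Odd e := by
      rw [Int.odd_iff] at hd ⊢
      omega
    unfold c2
    rw [chi4_congr h4, chi8_sq hd, chi8_sq he]
  · apply c2_congr
    have : (8 : ℤ) ∣ ((2 ^ v : ℕ) : ℤ) := by
      obtain ⟨k, rfl⟩ := Nat.exists_eq_add_of_lt hv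
      exact ⟨2 ^ k, by push_cast; ring⟩
    exact this.trans h

theorem kr_congr' {v D₀ : ℕ} (hv : 2 ≤ v) {d e : ℤ} (hd : Odd d)
    (h : ((2 ^ v * D₀ : ℕ) : ℤ) ∣ d - e) : kr v D₀ d = kr v D₀ e := by
  have h2 : ((2 ^ v : ℕ) : ℤ) ∣ d - e := Dvd.dvd.trans ⟨D₀, by push_cast; ring⟩ h
  have h0 : (D₀ : ℤ) ∣ d - e := Dvd.dvd.trans ⟨2 ^ v, by push_cast; ring⟩ h
  unfold kr
  rw [c2_congr' hv hd h2, jacobiSym.mod_left d D₀, jacobiSym.mod_left e D₀,
    Int.emod_eq_emod_iff_emod_sub_eq_zero.mpr (Int.emod_eq_zero_of_dvd h0)]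

/-- the factor at `2` of the Kronecker symbol `(-D / ·)` (`1` for `D` odd) -/
def c2D (D : ℕ) (d : ℤ) : ℤ :=
  if Odd D then 1 else c2 (D.factorization 2) (D / 2 ^ D.factorization 2) d

/-- the odd part -/
def oddP (D : ℕ) : ℕ := D / 2 ^ D.factorization 2

/-- the Kronecker symbol `(-D / d)` -/
def krD (D : ℕ) (d : ℤ) : ℤ := c2D D d * jacobiSym d (oddP D)

theorem oddP_mul (D : ℕ) : 2 ^ D.factorization 2 * oddP D = D := Nat.ordProj_mul_ordCompl_eq_self D 2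

theorem odd_oddP {D : ℕ} (hD : D ≠ 0) : Odd (oddP D) := by
  rw [← Nat.not_even_iff_odd, even_iff_two_dvd]
  exact Nat.not_dvd_ordCompl Nat.prime_two hD

theorem oddP_of_odd {D : ℕ} (hD : Odd D) : oddP D = D := by
  unfold oddP
  rw [Nat.factorization_eq_zero_of_not_dvd, pow_zero, Nat.div_one]
  rw [← even_iff_two_dvd]
  exact Nat.not_even_iff_odd.mpr hD

theorem krD_of_odd {D : ℕ} (hD : Odd D) (d : ℤ) : krD D d = jacobiSym d D := by
  rw [krD, c2D, if_pos hD, one_mul, oddP_of_odd hD]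

theorem krD_of_even {D : ℕ} (hD : ¬ Odd D) (d : ℤ) :
    krD D d = kr (D.factorization 2) (oddP D) d := by
  rw [krD, c2D, if_neg hD]
  rfl

/-- a discriminant is `0` or `1` mod `4` -/
theorem two_le {D : ℕ} (hD0 : D ≠ 0) (hD : ¬ Odd D) {a b c : ℤ} (h : b ^ 2 - 4 * a * c = -(D : ℤ)) :
    2 ≤ D.factorization 2 := by
  have hE : Even D := Nat.not_odd_iff_even.mp hD
  have h4 : 4 ∣ D := by
    obtain ⟨k, hk⟩ := hE
    have hb : Even b := by
      rw [← Int.not_odd_iff_even]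
      rintro ⟨j, rfl⟩
      subst hk
      have h3 : 4 * (j ^ 2 + j - a * c) + 1 = -(2 * (k : ℤ)) := by
        push_cast at h
        linear_combination h
      generalize j ^ 2 + j - a * c = x at h3
      omega
    obtain ⟨j, rfl⟩ := hb
    have h4 : (4 : ℤ) ∣ (D : ℤ) := ⟨-(j ^ 2 - a * c), by linear_combination h⟩
    exact_mod_cast h4
  exact (Nat.Prime.pow_dvd_iff_le_factorization Nat.prime_two hD0).mp (by simpa using h4)

theorem mod_four_of_odd {D : ℕ} (hD : Odd D) {a b c : ℤ} (h : b ^ 2 - 4 * a * c = -(D : ℤ)) :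
    D % 4 = 3 := by
  obtain ⟨k, rfl⟩ := hD
  rcases Int.even_or_odd' b with ⟨j, rfl | rfl⟩
  · have h3 : 4 * (j ^ 2 - a * c) = -(2 * (k : ℤ) + 1) := by
      push_cast at h
      linear_combination h
    generalize j ^ 2 - a * c = x at h3
    omega
  · have h3 : 4 * (j ^ 2 + j - a * c) + 1 = -(2 * (k : ℤ) + 1) := by
      push_cast at h
      linear_combination h
    generalize j ^ 2 + j - a * c = x at h3
    omega

/-- the Kronecker symbol at an odd positive `n` is the Jacobi symbol `(-D / n)` -/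
theorem krD_eq_jac {D : ℕ} (hD0 : D ≠ 0) {a b c : ℤ} (h : b ^ 2 - 4 * a * c = -(D : ℤ)) {n : ℕ}
    (hn : Odd n) : krD D n = jacobiSym (-(D : ℤ)) n := by
  by_cases hD : Odd D
  · rw [krD_of_odd hD, jacobiSym.neg _ hn, jacobiSym.quadratic_reciprocity hD hn,
      ZMod.χ₄_eq_neg_one_pow (Nat.odd_iff.mp hn)]
    have h3 := mod_four_of_odd hD h
    obtain ⟨k, hk⟩ : ∃ k, D / 2 = 2 * k + 1 := ⟨D / 4, by omega⟩
    rw [hk, ← mul_assoc, ← pow_add]
    have : n / 2 + (2 * k + 1) * (n / 2) = 2 * ((k + 1) * (n / 2)) := by ring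
    rw [this, pow_mul]
    simp
  · have e := oddP_mul D
    rw [krD_of_even hD]
    conv_rhs => rw [← e]
    exact (jac_eq_kr (odd_oddP hD0) hn).symm

theorem c2D_mul (D : ℕ) (d e : ℤ) : c2D D (d * e) = c2D D d * c2D D e := by
  unfold c2D
  split_ifs
  · simp
  · exact c2_mul _ _ _ _

theorem c2D_one (D : ℕ) : c2D D 1 = 1 := by
  unfold c2D
  split_ifs
  · rfl
  · exact c2_one _ _

theorem c2D_sq (D : ℕ) {d : ℤ} (hd : Odd d) : c2D D d * c2D D d = 1 := by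
  unfold c2D
  split_ifs
  · simp
  · exact c2_sq _ _ hd

theorem c2D_congr (D : ℕ) {d e : ℤ} (h : (8 : ℤ) ∣ d - e) : c2D D d = c2D D e := by
  unfold c2D
  split_ifs
  · rfl
  · exact c2_congr _ _ h

theorem krD_mul (D : ℕ) (d e : ℤ) : krD D (d * e) = krD D d * krD D e := by
  unfold krD
  rw [c2D_mul, jacobiSym.mul_left]
  ring

theorem krD_one (D : ℕ) : krD D 1 = 1 := by
  unfold krD
  rw [c2D_one, jacobiSym.one_left, one_mul]

theorem krD_neg_one {D : ℕ} (hD0 : D ≠ 0) {a b c : ℤ} (h : b ^ 2 - 4 * a * c = -(D : ℤ)) :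
    krD D (-1) = -1 := by
  by_cases hD : Odd D
  · rw [krD_of_odd hD, jacobiSym.at_neg_one hD, ZMod.χ₄_nat_three_mod_four (mod_four_of_odd hD h)]
  · rw [krD_of_even hD]
    exact kr_neg_one (odd_oddP hD0)

/-- the Kronecker symbol depends on `d` modulo `D` only (`d` odd when `D` is even) -/
theorem krD_congr {D : ℕ} (hD0 : D ≠ 0) {a b c : ℤ} (h : b ^ 2 - 4 * a * c = -(D : ℤ)) {d e : ℤ}
    (hd : Even D → Odd d) (hde : (D : ℤ) ∣ d - e) : krD D d = krD D e := by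
  by_cases hD : Odd D
  · rw [krD_of_odd hD, krD_of_odd hD, jacobiSym.mod_left d D, jacobiSym.mod_left e D,
      Int.emod_eq_emod_iff_emod_sub_eq_zero.mpr (Int.emod_eq_zero_of_dvd hde)]
  · rw [krD_of_even hD, krD_of_even hD]
    refine kr_congr' (two_le hD0 hD h) (hd (Nat.not_odd_iff_even.mp hD)) ?_
    rwa [oddP_mul]

/-- **[LAWX]** the law under `Γ₀(D m²)` for every discriminant `-D` -/
def LAWXStmt : Prop := ∀ (a b c : ℤ) (D : ℕ) (_ : 0 < a) (_ : 0 < D)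
  (_ : b ^ 2 - 4 * a * c = -(D : ℤ)) (κ m : ℕ) (_ : 0 < m) (f : ℤ × ℤ → ℂ) (_ : Per m f)
  (A B C d : ℤ) (_ : A * d - B * C = 1) (_ : ((D * m ^ 2 : ℕ) : ℤ) ∣ C) (w : ℂ) (_ : 0 < w.im),
  th a b c D κ f ((A * w + B) / (C * w + d)) =
    krD D d * (C * w + d) ^ (κ + 1) * th a b c D κ (fun v => f (d • v)) w

/-- the odd case is [LAW] -/
theorem lawx_of (hL : LAWStmt) (hE : ∀ (a b c : ℤ) (D : ℕ) (_ : 0 < a) (_ : 0 < D) (_ : ¬ Odd D)
    (_ : b ^ 2 - 4 * a * c = -(D : ℤ)) (κ m : ℕ) (_ : 0 < m) (f : ℤ × ℤ → ℂ) (_ : Per m f)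
    (A B C d : ℤ) (_ : A * d - B * C = 1) (_ : ((D * m ^ 2 : ℕ) : ℤ) ∣ C) (w : ℂ) (_ : 0 < w.im),
    th a b c D κ f ((A * w + B) / (C * w + d)) =
      krD D d * (C * w + d) ^ (κ + 1) * th a b c D κ (fun v => f (d • v)) w) : LAWXStmt := by
  intro a b c D ha hD0 h κ m hm f hf A B C d h1 h2 w hw
  by_cases hD : Odd D
  · rw [krD_of_odd hD]
    exact hL a b c D ha hD h κ m hm f hf A B C d h1 h2 w hw
  · exact hE a b c D ha hD0 hD h κ m hm f hf A B C d h1 h2 w hw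

end Vale.Agent.P022.H776
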