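import Vale.Agent.P022.H776.Kr
import Vale.Agent.P022.H933.Ext2

/-!
# P022-X: [JACG], [CHI], [HE] in the letters of `H933/Ext.lean`
-/

open NumberField Module Ideal

namespace Vale.Agent.P022.H776

open Vale.Agent.P022.X

/-- on odd integers `chiD` is the Kronecker symbol `kr` -/
theorem chiD_eq_kr {v D₀ : ℕ} (hD₀ : Odd D₀) {d : ℤ} (hd : Odd d) :
    chiD (2 ^ v * D₀) d = kr v D₀ d := by
  have hn : Odd d.natAbs := Int.natAbs_odd.mpr hd
  have h0 : d ≠ 0 := by rintro rfl; simp at hd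
  unfold chiD
  rw [jac_eq_kr hD₀ hn]
  rcases lt_or_gt_of_ne h0 with h | h
  · rw [Int.sign_eq_neg_one_of_neg h, ← kr_neg_one (v := v) hD₀, ← kr_mul]
    congr 1
    omega
  · rw [Int.sign_eq_one_of_pos h, one_mul]
    congr 1
    omega

theorem chiD_mul {D : ℕ} (d e : ℤ) (hd : Odd d) (he : Odd e) (hD : D ≠ 0) :
    chiD D (d * e) = chiD D d * chiD D e := by
  rw [← oddP_mul D, chiD_eq_kr (odd_oddP hD) (hd.mul he), chiD_eq_kr (odd_oddP hD) hd,
    chiD_eq_kr (odd_oddP hD) he, kr_mul]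

/-- the bridge to `krD` -/
theorem chiD_eq_krD {D : ℕ} (hD0 : D ≠ 0) {a b c : ℤ} (h : b ^ 2 - 4 * a * c = -(D : ℤ)) {d : ℤ}
    (hd : Odd d) : chiD D d = krD D d := by
  have hn : Odd d.natAbs := Int.natAbs_odd.mpr hd
  have h0 : d ≠ 0 := by rintro rfl; simp at hd
  unfold chiD
  rw [← krD_eq_jac hD0 h hn]
  rcases lt_or_gt_of_ne h0 with h1 | h1
  · rw [Int.sign_eq_neg_one_of_neg h1, ← krD_neg_one hD0 h, ← krD_mul]
    congr 1
    omega
  · rw [Int.sign_eq_one_of_pos h1, one_mul]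
    congr 1
    omega

/-- `chiD` depends on the class modulo `D` -/
theorem chiD_congr {D : ℕ} (hD0 : D ≠ 0) {a b c : ℤ} (h : b ^ 2 - 4 * a * c = -(D : ℤ)) {d e : ℤ}
    (hd : Odd d) (he : Odd e) (hde : (D : ℤ) ∣ d - e) : chiD D d = chiD D e := by
  rw [chiD_eq_krD hD0 h hd, chiD_eq_krD hD0 h he]
  exact krD_congr hD0 h (fun _ => hd) hde

/-- the law in the letters of `Ext` from the law with `krD` -/
theorem lawg_of (hL : LAWXStmt) : LAWGStmt := by
  intro a b c D ha hD0 h κ m hm f hf A B C d h1 h2 hd w hw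
  rw [chiD_eq_krD hD0.ne' h hd]
  exact hL a b c D ha hD0 h κ m hm f hf A B C d h1 h2 w hw

/-- **[JACG]** -/
theorem JACG : JACGStmt := by
  intro K _ _ _ _ D hD ℓ hℓ hℓD
  have : Fact ℓ.Prime := ⟨hℓ⟩
  obtain ⟨B⟩ := H724.exists_qb (K := K) (Algebra.IsQuadraticExtension.finrank_eq_two ℚ K)
  have h2 : ℓ ≠ 2 := by
    rintro rfl
    exact hℓD (dvd_mul_right _ _)
  refine ⟨?_, H724.unram hD hℓ hℓD⟩
  rw [B.ncard_norm_eq h2 (not_dvd_discr hD hℓD), ← jac_eq_leg hD]
  unfold chiD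
  rw [Int.natAbs_natCast, Int.sign_eq_one_of_pos (by exact_mod_cast hℓ.pos), one_mul]

/-- **[CHI]** -/
theorem CHI : CHIStmt := by
  intro D₁ e hD₁ he
  rcases he with ⟨rfl, h3⟩ | he
  · refine ⟨fun _ => 1, fun _ _ => Or.inl rfl, fun _ => rfl, fun _ _ _ _ => (one_mul 1).symm, ?_⟩
    intro d d' hd _ hd' h1
    have e1 : D₁ * 2 ^ 0 = 2 ^ 0 * D₁ := mul_comm _ _
    rw [e1, chiD_eq_kr hD₁ (hd'.mul hd), chiD_eq_kr hD₁ hd, kr_mul, one_mul]
    have h4 : kr 0 D₁ d' = 1 := by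
      have hj : jacobiSym d' D₁ = 1 := by
        rw [jacobiSym.mod_left, Int.emod_eq_emod_iff_emod_sub_eq_zero.mpr
          (Int.emod_eq_zero_of_dvd h1), ← jacobiSym.mod_left, jacobiSym.one_left]
      have h44 : ZMod.χ₄ (d' : ZMod 4) ^ 2 = 1 := by
        have h2 : d' % 2 = 1 := Int.odd_iff.mp hd'
        have : d' % 4 = 1 ∨ d' % 4 = 3 := by omega
        have e : ((d' % 4 : ℤ) : ZMod 4) = (d' : ZMod 4) := by
          rw [← sub_eq_zero, ← Int.cast_sub]
          exact (ZMod.intCast_zmod_eq_zero_iff_dvd _ _).mpr (by push_cast; omega)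
        rw [← e]
        rcases this with h | h <;> rw [h] <;> decide
      obtain ⟨k, hk⟩ : ∃ k, 1 + D₁ / 2 = 2 * k := ⟨(1 + D₁ / 2) / 2, by omega⟩
      unfold kr c2
      rw [hj, pow_zero, mul_one, mul_one, hk, pow_mul, h44, one_pow]
    rw [h4, one_mul]
  · refine ⟨c2 e D₁, ?_, ?_, ?_, ?_⟩
    · intro d hd
      have h1 := c2_sq e D₁ hd
      rcases mul_self_eq_one_iff.mp h1 with h | h
      · exact Or.inl h
      · exact Or.inr h
    · intro d
      exact c2_congr e D₁ ⟨1, by ring⟩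
    · intro d d' _ _
      exact c2_mul _ _ _ _
    · intro d d' hd _ hd' h1
      have e1 : D₁ * 2 ^ e = 2 ^ e * D₁ := mul_comm _ _
      rw [e1, chiD_eq_kr hD₁ (hd'.mul hd), chiD_eq_kr hD₁ hd, kr_mul]
      have hj : jacobiSym d' D₁ = 1 := by
        rw [jacobiSym.mod_left, Int.emod_eq_emod_iff_emod_sub_eq_zero.mpr
          (Int.emod_eq_zero_of_dvd h1), ← jacobiSym.mod_left, jacobiSym.one_left]
      congr 1
      unfold kr
      rw [hj, mul_one]

/-- **[HE]** the discriminant of an imaginary quadratic field is fundamental -/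
theorem HE (K : Type) [Field K] [NumberField K] [Algebra.IsQuadraticExtension ℚ K] (D₁ e : ℕ)
    (hD : NumberField.discr K = -((D₁ * 2 ^ e : ℕ) : ℤ)) (hD₁ : Odd D₁) :
    (e = 0 ∧ D₁ % 4 = 3) ∨ e = 2 ∨ e = 3 := by
  obtain ⟨B⟩ := H724.exists_qb (K := K) (Algebra.IsQuadraticExtension.finrank_eq_two ℚ K)
  have hB := B.discr_eq
  rw [hD] at hB
  have h1 : D₁ % 2 = 1 := Nat.odd_iff.mp hD₁
  rcases Int.even_or_odd' B.q with ⟨k, hk | hk⟩
  · rw [hk] at hB
    have hn : 4 * (k ^ 2 + B.p) = -((D₁ * 2 ^ e : ℕ) : ℤ) := by linear_combination -hB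
    right
    match e, hn with
    | 0, hn =>
      exfalso
      generalize k ^ 2 + B.p = x at hn
      push_cast at hn
      omega
    | 1, hn =>
      exfalso
      generalize k ^ 2 + B.p = x at hn
      push_cast at hn
      omega
    | 2, _ => exact Or.inl rfl
    | 3, _ => exact Or.inr rfl
    | j + 4, hn =>
      exfalso
      have hn' : k ^ 2 + B.p = 4 * -((D₁ : ℤ) * 2 ^ j) := by
        push_cast at hn
        have : (2 : ℤ) ^ (j + 4) = 16 * 2 ^ j := by rw [pow_add]; norm_num; ring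
        rw [this] at hn
        linarith
      have hsq : (B.ω - (k : 𝓞 K)) ^ 2 = ((4 * -((D₁ : ℤ) * 2 ^ j) : ℤ) : 𝓞 K) := by
        rw [← hn']
        have hk' : (B.q : 𝓞 K) = 2 * (k : 𝓞 K) := by rw [hk]; push_cast; ring
        push_cast
        linear_combination B.rel + B.ω * hk'
      have hint : IsIntegral ℤ (((B.ω - (k : 𝓞 K) : 𝓞 K) : K) / 2) := by
        refine IsIntegral.of_pow (n := 2) (by norm_num) ?_
        have h2 := congrArg (fun x : 𝓞 K => (x : K)) hsq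
        have h3 : (((B.ω - (k : 𝓞 K) : 𝓞 K) : K) / 2) ^ 2 = ((-((D₁ : ℤ) * 2 ^ j) : ℤ) : K) := by
          rw [div_pow, div_eq_iff (by norm_num)]
          simp only [map_pow, map_intCast] at h2
          rw [h2]
          push_cast
          ring
        rw [h3]
        exact isIntegral_algebraMap (R := ℤ) (A := K) (x := -((D₁ : ℤ) * 2 ^ j))
      let z : 𝓞 K := ⟨_, hint⟩
      have hz : (2 : 𝓞 K) * z = B.ω - (k : 𝓞 K) := by
        apply RingOfIntegers.ext
        have h6 : algebraMap (𝓞 K) K z = algebraMap (𝓞 K) K (B.ω - (k : 𝓞 K)) / 2 := rfl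
        show algebraMap (𝓞 K) K (2 * z) = algebraMap (𝓞 K) K (B.ω - (k : 𝓞 K))
        rw [map_mul, h6, map_ofNat]
        ring
      obtain ⟨a, b, hab⟩ := B.gen z
      rw [hab] at hz
      have h5 := (B.ind (-k - 2 * a) (1 - 2 * b) (by
        push_cast
        linear_combination -hz)).2
      omega
  · rw [hk] at hB
    have hn : 4 * (k ^ 2 + k + B.p) + 1 = -((D₁ * 2 ^ e : ℕ) : ℤ) := by linear_combination -hB
    left
    generalize k ^ 2 + k + B.p = x at hn
    match e, hn with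
    | 0, hn =>
      refine ⟨rfl, ?_⟩
      push_cast at hn
      omega
    | j + 1, hn =>
      exfalso
      push_cast at hn
      rw [pow_succ] at hn
      have : (D₁ : ℤ) * (2 ^ j * 2) = 2 * (D₁ * 2 ^ j) := by ring
      rw [this] at hn
      omega

end Vale.Agent.P022.H776
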