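import Vale.Agent.P022.H776.Chi

/-!
# P022-X: [CHI2]
-/

namespace Vale.Agent.P022.H776

open Vale.Agent.P022.X

/-- **[CHI2]** -/
theorem CHI2 : CHI2Stmt := by
  intro D₁ e hD₁
  refine ⟨c2 e D₁, ?_, ?_, ?_, ?_⟩
  · intro d hd
    exact mul_self_eq_one_iff.mp (c2_sq e D₁ hd)
  · intro d
    exact c2_congr e D₁ ⟨1, by ring⟩
  · intro d d' _ _
    exact c2_mul _ _ _ _
  · intro d d' hd _ hd' h1
    have e1 : D₁ * 2 ^ e = 2 ^ e * D₁ := mul_comm _ _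
    rw [e1, chiD_eq_kr hD₁ (hd'.mul hd), chiD_eq_kr hD₁ hd, kr_mul]
    have hj : jacobiSym d' D₁ = 1 := by
      rw [jacobiSym.mod_left, Int.emod_eq_emod_iff_emod_sub_eq_zero.mpr
        (Int.emod_eq_zero_of_dvd h1), ← jacobiSym.mod_left, jacobiSym.one_left]
    congr 1
    unfold kr
    rw [hj, mul_one]

end Vale.Agent.P022.H776
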