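import Vale.Agent.P022.H776.Jace
import Vale.Agent.P022.H220.SerT

/-!
# P022-X [SERE]: `T_ℓ` on theta series of ideals, any discriminant, any level
-/

open scoped ModularForm MatrixGroups Manifold NumberField
open UpperHalfPlane Matrix CongruenceSubgroup
open Vale.Agent.P022.H220

noncomputable section

namespace Vale.Agent.P022.H776

variable {K : Type} [Field K] [NumberField K] [Algebra.IsQuadraticExtension ℚ K]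

/-- **[SERE]** `T_ℓ Θ_𝔟 = ∑_{N 𝔭 = ℓ} Θ_{𝔟 𝔭}` for every discriminant `-D` (odd or even), every
level `L` and every prime `ℓ` prime to `2 L D`; the diamond operator acts by `(-D / ℓ)` -/
theorem serE {D : ℕ} (hD : NumberField.discr K = -(D : ℤ)) (s : K →+* ℂ) {L : ℕ}
    {𝔟 : Ideal (𝓞 K)} (h𝔟 : 𝔟 ≠ ⊥) (f : 𝓞 K → ℂ) (κ : ℕ) (ℓ : PA L) (hℓD : ¬ ℓ.1 ∣ 2 * D)
    (G : ℍ → ℂ) (hG : ∀ τ : ℍ, HasSum (idT s 𝔟 f κ τ) (G τ))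
    (hdG : ∀ τ : ℍ, HasSum (fun α : 𝔟 => (jacobiSym (-(D : ℤ)) ℓ.1 : ℂ) *
      idT s 𝔟 (fun α => f (ℓ.1 * α)) κ τ α) (dFun L (κ + 1) ℓ G τ)) (τ : ℍ) :
    tFun L (κ + 1) ℓ G τ =
      ∑ᶠ 𝔭 ∈ {𝔭 : Ideal (𝓞 K) | Ideal.absNorm 𝔭 = ℓ.1}, thI s (𝔟 * 𝔭) f κ τ := by
  classical
  have h2 : Module.finrank ℤ (𝓞 K) = 2 := by
    rw [NumberField.RingOfIntegers.rank]
    exact Algebra.IsQuadraticExtension.finrank_eq_two ℚ K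
  obtain ⟨ℓ, hℓ, hℓN⟩ := ℓ
  have hchi : chi (𝓞 K) ℓ = jacobiSym (-(D : ℤ)) ℓ := chiE_eq hD hℓ hℓD
  have hu : Unram (𝓞 K) ℓ := H724.unram hD hℓ hℓD
  have hquo : ∀ α ∈ 𝔟, ∃ a : Ideal (𝓞 K), Ideal.span {α} = 𝔟 * a := fun α hα =>
    Ideal.dvd_span_singleton.mpr hα
  choose! qa hqa using hquo
  have hnn : ∀ α ∈ 𝔟, Ideal.absNorm (Ideal.span {α}) = Ideal.absNorm (qa α) * Ideal.absNorm 𝔟 := by
    intro α hα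
    rw [hqa α hα, map_mul, mul_comm]
  have h1 := part_up s 𝔟 h𝔟 f κ ℓ hℓ G hG τ (fun α => Ideal.absNorm (qa α)) hnn
  have hsum := part_sum s 𝔟 h𝔟 f κ ℓ hℓ G hG τ (fun α => Ideal.absNorm (qa α)) hnn
  have h6 := part_dn s 𝔟 h𝔟 h2 f κ ℓ hℓ _ _ hdG τ
  have k1 := hs_ind (𝔟 : Set (𝓞 K))
    (fun α => if ℓ ∣ Ideal.absNorm (qa α) then hh s 𝔟 f κ ℓ τ α else 0) _ h1
  have k2 := part_dn' 𝔟 ℓ hℓ.ne_zero (hh s 𝔟 f κ ℓ τ) _ _ h6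
  have k3 : ∀ 𝔭 ∈ Pl (𝓞 K) ℓ, HasSum (fun α : 𝓞 K => if α ∈ 𝔟 * 𝔭 then hh s 𝔟 f κ ℓ τ α else 0)
      (thI s (𝔟 * 𝔭) f κ τ) := fun 𝔭 h𝔭 =>
    part_p s 𝔟 f κ ℓ τ hsum 𝔭 (mem_Pl.mp h𝔭)
  have k4 := hasSum_sum k3
  have k5 := hs_congr (k1.add k2) fun α =>
    (pointwise h2 hℓ hu hchi h𝔟 (qa α) α (hqa α) (hh s 𝔟 f κ ℓ τ α)).symm
  have hfin := k5.unique k4
  have hset : {𝔭 : Ideal (𝓞 K) | Ideal.absNorm 𝔭 = ℓ} = ((Pl (𝓞 K) ℓ : Finset _) : Set _) := by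
    ext p
    simp
  rw [hset, finsum_mem_coe_finset, ← hfin]
  simp only [tFun, Pi.add_apply, Finset.sum_apply]

end Vale.Agent.P022.H776
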